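import Vale.Agent.P182.H664.CIsoSq
import Vale.Agent.P182.H258.RdIso

/-!
# Transport along isomorphisms of configurations, and the structured form `STR`
-/

namespace Vale.Agent.P182.H716

open Module Matrix TensorProduct Vale.Agent.P182.H533 Vale.Agent.P182.B1 Vale.Agent.P182.H62
open Vale.Agent.P182.H258 (ciso_q_symm ciso_mem_F ciso_mem_F' ciso_versal ciso_mem_C
  ciso_mem_perp ciso_C ciso_om ciso_mem_K ciso_finrank_K)

universe u v v' v'' w

section basic

variable {L : Type u} {J : Type w} [Field L] {V : Type v} [AddCommGroup V] [Module L V]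
  {V' : Type v'} [AddCommGroup V'] [Module L V'] {V'' : Type v''} [AddCommGroup V'']
  [Module L V''] {𝒟 : Cfg L V J} {𝒟' : Cfg L V' J} {𝒟'' : Cfg L V'' J}

/-- the identity -/
def cIsoRefl (𝒟 : Cfg L V J) : CIso 𝒟 𝒟 where
  e := LinearEquiv.refl L V
  q := fun _ _ => rfl
  F := fun _ _ => Submodule.map_id _
  arm := rfl
  c := rfl
  Ω := rfl

/-- the composition -/
def cIsoTrans (i : CIso 𝒟 𝒟') (j : CIso 𝒟' 𝒟'') : CIso 𝒟 𝒟'' where
  e := i.e.trans j.e
  q := fun x y => by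
    show 𝒟''.q (j.e (i.e x)) (j.e (i.e y)) = _
    rw [j.q, i.q]
  F := fun s k => by
    rw [← j.F, ← i.F, ← Submodule.map_comp]
    rfl
  arm := j.arm.trans i.arm
  c := j.c.trans i.c
  Ω := j.Ω.trans i.Ω

theorem cIso_perp (i : CIso 𝒟 𝒟') (W : Submodule L V) :
    perp 𝒟'.q (W.map i.e.toLinearMap) = (perp 𝒟.q W).map i.e.toLinearMap := by
  ext x
  constructor
  · intro hx
    refine ⟨i.e.symm x, fun w hw => ?_, i.e.apply_symm_apply x⟩
    rw [← i.q, LinearEquiv.apply_symm_apply]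
    exact hx _ ⟨w, hw, rfl⟩
  · rintro ⟨y, hy, rfl⟩ _ ⟨w, hw, rfl⟩
    show 𝒟'.q (i.e y) (i.e w) = 0
    rw [i.q]
    exact hy w hw

theorem ciso_C' (i : CIso 𝒟 𝒟') (l : J) : 𝒟'.C l = (𝒟.C l).map i.e.toLinearMap := by
  rw [Cfg.C, Cfg.C, i.arm, i.c, ← i.F]

theorem cIso_iso (i : CIso 𝒟 𝒟') {S : Submodule L V} :
    𝒟'.Iso (S.map i.e.toLinearMap) ↔ 𝒟.Iso S := by
  rw [Cfg.Iso, Cfg.Iso, cIso_perp]
  exact Submodule.map_le_map_iff_of_injective i.e.injective _ _

theorem cIso_finrank_inf (i : CIso 𝒟 𝒟') (S W : Submodule L V) :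
    finrank L ↥(S.map i.e.toLinearMap ⊓ W.map i.e.toLinearMap) = finrank L ↥(S ⊓ W) := by
  rw [← Submodule.map_inf _ i.e.injective]
  exact LinearEquiv.finrank_map_eq i.e (S ⊓ W)

theorem cIso_th (i : CIso 𝒟 𝒟') (s : Fin 3) (k : ℕ) (S : Submodule L V) :
    𝒟'.th s k (S.map i.e.toLinearMap) = 𝒟.th s k S := by
  rw [Cfg.th, Cfg.th, ← i.F, cIso_perp, cIso_finrank_inf, cIso_finrank_inf]
  congr 2
  exact LinearEquiv.finrank_map_eq i.e S

theorem cIso_theta [Fintype J] (i : CIso 𝒟 𝒟') (S : Submodule L V) :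
    𝒟'.theta (S.map i.e.toLinearMap) = 𝒟.theta S := by
  rw [Cfg.theta, Cfg.theta, i.arm, i.c]
  exact Finset.sum_congr rfl fun l _ => cIso_th i _ _ _

/-- transport of the standing assumptions -/
theorem cIso_good (i : CIso 𝒟 𝒟') (g : 𝒟.Good) : 𝒟'.Good where
  form :=
    { symm := fun x y => by
        obtain ⟨x, rfl⟩ := i.e.surjective x
        obtain ⟨y, rfl⟩ := i.e.surjective y
        rw [i.q, i.q, g.form.symm]
      nondeg := fun x hx => by
        obtain ⟨x, rfl⟩ := i.e.surjective x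
        rw [g.form.nondeg x fun y => by rw [← i.q, hx], map_zero] }
  zero := fun s => by rw [← i.F, g.zero, Submodule.map_bot]
  mono := fun s k l h => by
    rw [← i.F, ← i.F]
    exact Submodule.map_mono (g.mono s h)
  iso := fun s k => by
    rw [← i.F, cIso_perp]
    exact Submodule.map_mono (g.iso s k)
  step := fun s k => by
    rw [← i.F, ← i.F]
    have h1 := g.step s k
    have h2 := LinearEquiv.finrank_map_eq i.e (𝒟.F s k)
    have h3 := LinearEquiv.finrank_map_eq i.e (𝒟.F s (k + 1))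
    have h4 : finrank L ↥((𝒟.F s k).map i.e.toLinearMap) = finrank L ↥(𝒟.F s k) := h2
    have h5 : finrank L ↥((𝒟.F s (k + 1)).map i.e.toLinearMap) = finrank L ↥(𝒟.F s (k + 1)) := h3
    rw [h4, h5]
    exact h1
  skew := by rw [i.Ω]; exact g.skew

/-- transport of subquotients -/
theorem exists_cIsoSQmap (i : CIso 𝒟 𝒟') (g : 𝒟.Good) (g' : 𝒟'.Good) (S : Submodule L V) :
    Nonempty (CIso (sq 𝒟 g S) (sq 𝒟' g' (S.map i.e.toLinearMap))) := by
  have hP : ∀ u : ↥(perp 𝒟.q S), i.e u ∈ perp 𝒟'.q (S.map i.e.toLinearMap) := fun u => by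
    rw [cIso_perp]
    exact ⟨u, u.2, rfl⟩
  let φ : ↥(perp 𝒟.q S) →ₗ[L] SQ 𝒟'.q (S.map i.e.toLinearMap) :=
    { toFun := fun u => SQmk _ ⟨i.e u, hP u⟩
      map_add' := fun a b => by
        rw [← map_add]
        congr 1
        exact Subtype.ext (map_add i.e _ _)
      map_smul' := fun c a => by
        rw [RingHom.id_apply, ← map_smul]
        congr 1
        exact Subtype.ext (map_smul i.e _ _) }
  have hφ : ∀ u, φ u = SQmk _ ⟨i.e u, hP u⟩ := fun u => rfl
  have hback : ∀ w : ↥(perp 𝒟'.q (S.map i.e.toLinearMap)),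
      ∃ u : ↥(perp 𝒟.q S), i.e u = w := by
    rintro ⟨w, hw⟩
    rw [cIso_perp] at hw
    obtain ⟨u, hu, huw⟩ := hw
    exact ⟨⟨u, hu⟩, huw⟩
  refine ⟨cIsoSQ g S φ ?_ ?_ ?_ ?_ i.arm i.c i.Ω⟩
  · intro z
    obtain ⟨w, rfl⟩ := SQmk_surjective _ z
    obtain ⟨u, hu⟩ := hback w
    refine ⟨u, ?_⟩
    rw [hφ]
    congr 1
    exact Subtype.ext hu
  · intro u
    rw [hφ, SQmk_eq_zero]
    constructor
    · rintro ⟨s, hs, hsu⟩
      have : s = u := i.e.injective hsu
      rw [← this]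
      exact hs
    · intro h
      exact ⟨u, h, rfl⟩
  · intro u v
    show 𝒟'.q (i.e u) (i.e v) = _
    exact i.q _ _
  · intro s k x
    show x ∈ SQim _ (𝒟'.F s k) ↔ _
    rw [mem_SQim]
    constructor
    · rintro ⟨w, hw, rfl⟩
      obtain ⟨u, hu⟩ := hback w
      refine ⟨u, ?_, ?_⟩
      · rw [← hu, ← i.F] at hw
        obtain ⟨z, hz, hzu⟩ := hw
        have : z = u := i.e.injective hzu
        rw [← this]
        exact hz
      · rw [hφ]
        congr 1
        exact Subtype.ext hu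
    · rintro ⟨u, hu, rfl⟩
      exact ⟨⟨i.e u, hP u⟩, by rw [← i.F]; exact ⟨u, hu, rfl⟩, rfl⟩

end basic

section ext

variable {L : Type u} {J : Type w} [Field L] {V : Type u} [AddCommGroup V] [Module L V]
  {V' : Type u} [AddCommGroup V'] [Module L V'] [Fintype J] {𝒟 : Cfg L V J} {𝒟' : Cfg L V' J}

/-- transport of `Ext(N, S) = 0` -/
theorem cIso_extZero (i : CIso 𝒟 𝒟') {S : Submodule L V} (h : ExtZero 𝒟 S) :
    ExtZero 𝒟' (S.map i.e.toLinearMap) := by
  rw [extZero_iff] at h ⊢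
  intro y h1 h2
  let ε : ↥S ≃ₗ[L] ↥(S.map i.e.toLinearMap) := i.e.submoduleMap S
  have hε : ∀ v : ↥S, ((ε v : ↥(S.map i.e.toLinearMap)) : V') = i.e v := fun v => rfl
  have h3 := h (fun l => y l ∘ₗ ε.toLinearMap) (fun l v hv => by
      refine h1 l (ε v) ?_
      rw [hε, ciso_C' i, cIso_perp]
      exact ⟨v, hv, rfl⟩)
    (fun l v hv => by
      have h4 := h2 l (ε v) (by
        rw [hε, ciso_C' i]
        exact ⟨v, hv, rfl⟩)
      rw [i.Ω] at h4
      exact h4)
  funext l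
  refine LinearMap.ext fun v => ?_
  obtain ⟨u, rfl⟩ := ε.surjective v
  exact LinearMap.congr_fun (congrFun h3 l) u

end ext

section bc

variable {L : Type u} {J : Type w} [Field L] {V : Type v} [AddCommGroup V] [Module L V]
  {V' : Type v'} [AddCommGroup V'] [Module L V'] {𝒟 : Cfg L V J} {𝒟' : Cfg L V' J}

/-- base change of an isomorphism -/
noncomputable def cIsoBC (i : CIso 𝒟 𝒟') (L' : Type u) [Field L'] [Algebra L L'] :
    CIso (bcC 𝒟 L') (bcC 𝒟' L') where
  e := LinearEquiv.baseChange L L' V V' i.e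
  q := fun x y => qbc_baseChange L' i.e.toLinearMap 𝒟.q 𝒟'.q i.q x y
  F := fun s k => by
    show ((𝒟.F s k).baseChange L').map _ = (𝒟'.F s k).baseChange L'
    rw [← i.F, Submodule.baseChange_eq_span, Submodule.baseChange_eq_span, Submodule.map_span]
    congr 1
    ext x
    constructor
    · rintro ⟨_, ⟨v, hv, rfl⟩, rfl⟩
      exact ⟨i.e v, ⟨v, hv, rfl⟩, rfl⟩
    · rintro ⟨_, ⟨v, hv, rfl⟩, rfl⟩
      exact ⟨(1 : L') ⊗ₜ v, ⟨v, hv, rfl⟩, rfl⟩
  arm := i.arm
  c := i.c
  Ω := by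
    show 𝒟'.Ω.map _ = 𝒟.Ω.map _
    rw [i.Ω]

variable {L' : Type u} [Field L'] [Algebra L L'] {L'' : Type u} [Field L''] [Algebra L' L'']
  [Algebra L L''] [IsScalarTower L L' L'']

/-- the image of an iterated base change -/
theorem map_cancel_baseChange (W : Submodule L V) :
    ((W.baseChange L').baseChange L'').map
      (AlgebraTensorModule.cancelBaseChange L L' L'' L'' V).toLinearMap = W.baseChange L'' := by
  rw [Submodule.baseChange_eq_span L'' (W.baseChange L'), Submodule.map_span]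
  apply le_antisymm
  · rw [Submodule.span_le]
    rintro _ ⟨_, ⟨x, hx, rfl⟩, rfl⟩
    have h1 : W.baseChange L' ≤ ((W.baseChange L'').restrictScalars L').comap
        ((AlgebraTensorModule.cancelBaseChange L L' L'' L'' V).toLinearMap.restrictScalars L' ∘ₗ
          TensorProduct.mk L' L'' (L' ⊗[L] V) 1) := by
      rw [Submodule.baseChange_eq_span, Submodule.span_le]
      rintro _ ⟨v, hv, rfl⟩
      show AlgebraTensorModule.cancelBaseChange L L' L'' L'' V
        ((1 : L'') ⊗ₜ[L'] ((1 : L') ⊗ₜ[L] v)) ∈ W.baseChange L''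
      rw [AlgebraTensorModule.cancelBaseChange_tmul, one_smul]
      exact Submodule.tmul_mem_baseChange_of_mem 1 hv
    exact h1 hx
  · rw [Submodule.baseChange_eq_span, Submodule.span_le]
    rintro _ ⟨v, hv, rfl⟩
    refine Submodule.subset_span ⟨(1 : L'') ⊗ₜ[L'] ((1 : L') ⊗ₜ[L] v),
      ⟨_, Submodule.tmul_mem_baseChange_of_mem 1 hv, rfl⟩, ?_⟩
    show AlgebraTensorModule.cancelBaseChange L L' L'' L'' V
        ((1 : L'') ⊗ₜ[L'] ((1 : L') ⊗ₜ[L] v)) = _
    rw [AlgebraTensorModule.cancelBaseChange_tmul, one_smul]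
    rfl

theorem qbc_cancel (q : V →ₗ[L] V →ₗ[L] L) (x y : L'' ⊗[L'] (L' ⊗[L] V)) :
    qbc L'' q (AlgebraTensorModule.cancelBaseChange L L' L'' L'' V x)
      (AlgebraTensorModule.cancelBaseChange L L' L'' L'' V y) = qbc L'' (qbc L' q) x y := by
  induction x with
  | zero => simp
  | add x z hx hz =>
    rw [map_add, map_add, map_add, LinearMap.add_apply, LinearMap.add_apply, hx, hz]
  | tmul a u =>
    induction y with
    | zero => simp
    | add y z hy hz => rw [map_add, map_add, map_add, hy, hz]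
    | tmul b v =>
      induction u with
      | zero => simp
      | add x z hx hz =>
        rw [tmul_add, map_add, map_add, map_add, LinearMap.add_apply, LinearMap.add_apply, hx, hz]
      | tmul a' u =>
        induction v with
        | zero => simp
        | add x z hx hz => rw [tmul_add, map_add, map_add, map_add, hx, hz]
        | tmul b' v =>
          rw [AlgebraTensorModule.cancelBaseChange_tmul, AlgebraTensorModule.cancelBaseChange_tmul,
            qbc_tmul, qbc_tmul, qbc_tmul, map_mul, map_mul, ← IsScalarTower.algebraMap_apply,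
            Algebra.smul_def, Algebra.smul_def]
          ring

theorem qbc_lid (q : V →ₗ[L] V →ₗ[L] L) (x y : L ⊗[L] V) :
    q (TensorProduct.lid L V x) (TensorProduct.lid L V y) = qbc L q x y := by
  induction x with
  | zero => simp
  | add x z hx hz =>
    rw [map_add, map_add, map_add, LinearMap.add_apply, LinearMap.add_apply, hx, hz]
  | tmul a u =>
    induction y with
    | zero => simp
    | add y z hy hz => rw [map_add, map_add, map_add, hy, hz]
    | tmul b v =>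
      rw [TensorProduct.lid_tmul, TensorProduct.lid_tmul, qbc_tmul, map_smul, map_smul,
        LinearMap.smul_apply, smul_eq_mul, smul_eq_mul]
      show b * (a * q u v) = a * b * q u v
      ring

/-- trivial base change -/
noncomputable def cIsoSelf (𝒟 : Cfg L V J) : CIso (bcC 𝒟 L) 𝒟 where
  e := TensorProduct.lid L V
  q := fun x y => qbc_lid 𝒟.q x y
  F := fun s k => by
    show ((𝒟.F s k).baseChange L).map (TensorProduct.lid L V).toLinearMap = 𝒟.F s k
    rw [Submodule.baseChange_eq_span, Submodule.map_span]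
    apply le_antisymm
    · rw [Submodule.span_le]
      rintro _ ⟨_, ⟨v, hv, rfl⟩, rfl⟩
      show TensorProduct.lid L V ((1 : L) ⊗ₜ v) ∈ 𝒟.F s k
      rw [TensorProduct.lid_tmul, one_smul]
      exact hv
    · intro v hv
      refine Submodule.subset_span ⟨(1 : L) ⊗ₜ v, ⟨v, hv, rfl⟩, ?_⟩
      show TensorProduct.lid L V ((1 : L) ⊗ₜ v) = v
      rw [TensorProduct.lid_tmul, one_smul]
  arm := rfl
  c := rfl
  Ω := by
    ext l k
    rfl

/-- iterated base change -/
noncomputable def cIsoTower (𝒟 : Cfg L V J) : CIso (bcC (bcC 𝒟 L') L'') (bcC 𝒟 L'') where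
  e := AlgebraTensorModule.cancelBaseChange L L' L'' L'' V
  q := fun x y => qbc_cancel 𝒟.q x y
  F := fun s k => map_cancel_baseChange (𝒟.F s k)
  arm := rfl
  c := rfl
  Ω := by
    ext l k
    show algebraMap L L'' _ = algebraMap L' L'' (algebraMap L L' _)
    rw [← IsScalarTower.algebraMap_apply]

end bc

section str

variable {L : Type u} {J : Type w} [Field L] {V : Type u} [AddCommGroup V] [Module L V]
  {V' : Type u} [AddCommGroup V'] [Module L V'] [Fintype J] {𝒟 : Cfg L V J} {𝒟' : Cfg L V' J}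

theorem cIso_uSemi (i : CIso 𝒟 𝒟') (h : USemi 𝒟) : USemi 𝒟' := by
  intro L' _ _ S hS
  have j := cIsoBC (cIsoSymm i) L'
  have h1 := h L' (S.map j.e.toLinearMap) ((cIso_iso j).mpr hS)
  rwa [cIso_theta] at h1

omit [Fintype J] in
theorem map_ne_bot (i : CIso 𝒟 𝒟') {S : Submodule L V} (hS : S ≠ ⊥) :
    S.map i.e.toLinearMap ≠ ⊥ := fun h => by
  refine hS (Submodule.map_injective_of_injective i.e.injective ?_)
  rw [h, Submodule.map_bot]

theorem cIso_uStrict (i : CIso 𝒟 𝒟') (h : UStrict 𝒟) : UStrict 𝒟' := by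
  intro L' _ _ S hS h0
  have j := cIsoBC (cIsoSymm i) L'
  have h1 := h L' (S.map j.e.toLinearMap) ((cIso_iso j).mpr hS) (map_ne_bot j h0)
  rwa [cIso_theta] at h1

/-- the structured form over the given field -/
def Res (𝒟 : Cfg L V J) (g : 𝒟.Good) : Prop :=
  ∃ S : Submodule L V, 𝒟.Iso S ∧ ExtZero 𝒟 S ∧ (sq 𝒟 g S).Versal ∧ UStrict (sq 𝒟 g S) ∧
    finrank L (sq 𝒟 g S).K ≤ 1

theorem STR_iff {g : 𝒟.Good} : STR 𝒟 g ↔ ∃ (L' : Type u) (_ : Field L') (_ : Algebra L L'),
    Res (bcC 𝒟 L') (good_bcC g) := Iff.rfl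

theorem cIso_Res (i : CIso 𝒟 𝒟') {g : 𝒟.Good} (g' : 𝒟'.Good) (h : Res 𝒟 g) : Res 𝒟' g' := by
  obtain ⟨S, hS, hE, hV, hU, hK⟩ := h
  obtain ⟨e⟩ := exists_cIsoSQmap i g g' S
  exact ⟨S.map i.e.toLinearMap, (cIso_iso i).mpr hS, cIso_extZero i hE, ciso_versal e hV,
    cIso_uStrict e hU, (ciso_finrank_K e).trans_le hK⟩

theorem Res_of_sq [FiniteDimensional L V] {g : 𝒟.Good} {S : Submodule L V} (hS : 𝒟.Iso S)
    (hE : ExtZero 𝒟 S) {g' : (sq 𝒟 g S).Good} (h : Res (sq 𝒟 g S) g') : Res 𝒟 g := by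
  obtain ⟨T, hT, hET, hV, hU, hK⟩ := h
  obtain ⟨e⟩ := exists_cIsoIter g hS g' T
  exact ⟨SQpre S T, iso_SQpre g hS hT, extZero_SQpre g hS hE hET, ciso_versal e hV,
    cIso_uStrict e hU, (ciso_finrank_K e).trans_le hK⟩

theorem STR_of_Res {g : 𝒟.Good} (h : Res 𝒟 g) : STR 𝒟 g :=
  STR_iff.mpr ⟨L, inferInstance, inferInstance, cIso_Res (cIsoSymm (cIsoSelf 𝒟)) _ h⟩

/-- transport of the structured form -/
theorem cIso_STR (i : CIso 𝒟 𝒟') {g : 𝒟.Good} (g' : 𝒟'.Good) (h : STR 𝒟 g) : STR 𝒟' g' := by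
  rw [STR_iff] at h ⊢
  obtain ⟨L', _, _, h⟩ := h
  exact ⟨L', inferInstance, inferInstance, cIso_Res (cIsoBC i L') _ h⟩

/-- the structured form over an extension -/
theorem STR_of_bc {L' : Type u} [Field L'] [Algebra L L'] {g : 𝒟.Good}
    (h : STR (bcC 𝒟 L') (good_bcC g)) : STR 𝒟 g := by
  rw [STR_iff] at h ⊢
  obtain ⟨L'', _, _, h⟩ := h
  let _ : Algebra L L'' := ((algebraMap L' L'').comp (algebraMap L L')).toAlgebra
  have _ : IsScalarTower L L' L'' := IsScalarTower.of_algebraMap_eq' rfl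
  exact ⟨L'', inferInstance, inferInstance, cIso_Res (cIsoTower (L' := L') (L'' := L'') 𝒟) _ h⟩

theorem uSemi_bc (h : USemi 𝒟) (L' : Type u) [Field L'] [Algebra L L'] : USemi (bcC 𝒟 L') := by
  intro L'' _ _ S hS
  let _ : Algebra L L'' := ((algebraMap L' L'').comp (algebraMap L L')).toAlgebra
  have _ : IsScalarTower L L' L'' := IsScalarTower.of_algebraMap_eq' rfl
  have j := cIsoTower (L' := L') (L'' := L'') 𝒟
  have h1 := h L'' (S.map j.e.toLinearMap) ((cIso_iso j).mpr hS)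
  rwa [cIso_theta] at h1

theorem uStrict_bc (h : UStrict 𝒟) (L' : Type u) [Field L'] [Algebra L L'] :
    UStrict (bcC 𝒟 L') := by
  intro L'' _ _ S hS h0
  let _ : Algebra L L'' := ((algebraMap L' L'').comp (algebraMap L L')).toAlgebra
  have _ : IsScalarTower L L' L'' := IsScalarTower.of_algebraMap_eq' rfl
  have j := cIsoTower (L' := L') (L'' := L'') 𝒟
  have h1 := h L'' (S.map j.e.toLinearMap) ((cIso_iso j).mpr hS) (map_ne_bot j h0)
  rwa [cIso_theta] at h1

/-- **the structured form of a subquotient** -/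
theorem STR_of_sq [FiniteDimensional L V] {g : 𝒟.Good} {S : Submodule L V} (hS : 𝒟.Iso S)
    (hE : ExtZero 𝒟 S) {g' : (sq 𝒟 g S).Good} (h : STR (sq 𝒟 g S) g') : STR 𝒟 g := by
  rw [STR_iff] at h ⊢
  obtain ⟨L', _, _, h⟩ := h
  obtain ⟨i⟩ := exists_cIsoBC (L' := L') g S
  have gS : (sq (bcC 𝒟 L') (good_bcC g) (S.baseChange L')).Good := good_sq _ (iso_bcC hS)
  exact ⟨L', inferInstance, inferInstance,
    Res_of_sq (iso_bcC hS) (extZero_bc hE) (cIso_Res i gS h)⟩

end str

end Vale.Agent.P182.H716
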