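import Vale.Agent.P182.H668.Split3
import Vale.Agent.P182.H250.Nil
import Vale.Agent.P182.H120.Bricks1

/-!
# Higgs fields of the summand `R` ([HX5])

`R` is the image of `A^⊥` in the reduction `A₀^⊥/(A₀ ∩ A₀^⊥)`.  The Higgs fields of `N` which kill
the kernel of `φ` induce Higgs fields of `R`, and the induced fields are nonzero, since `N` has no
nilpotent Higgs fields.
-/

namespace Vale.Agent.P182.H716

open LinearMap Submodule Module Vale.Agent.P182 Vale.Agent.P182.H430 Vale.Agent.P182.H578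
  Vale.Agent.P182.H668

variable {k F P : Type*} [Field k] [Field F] [Algebra k F] {C : Curve k F P}
variable {E : Type*} [AddCommGroup E] [Module F E] [Module k E] [IsScalarTower k F E]
  [FiniteDimensional F E]
variable {E₂ : Type*} [AddCommGroup E₂] [Module F E₂] [Module k E₂] [IsScalarTower k F E₂]
  [FiniteDimensional F E₂]
variable {W : Type*} [AddCommGroup W] [Module F W] [Module k W] [IsScalarTower k F W]
  [FiniteDimensional F W]
variable {U : Type*} [AddCommGroup U] [Module F U] [Module k U] [IsScalarTower k F U]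
  [FiniteDimensional F U]
variable {U' : Type*} [AddCommGroup U'] [Module F U'] [Module k U'] [IsScalarTower k F U']
  [FiniteDimensional F U']

variable {κ : P → ℤ} {N : Bun C E} {B : LinearMap.BilinForm F E} {M : Bun C W}
  {qM : LinearMap.BilinForm F W} {S : Bun C U} {S' : Bun C U'} {qS : U →ₗ[F] U' →ₗ[F] F}
  {x : E →ₗ[F] U} {φ : E →ₗ[F] W} {A : Submodule F E}

/-- membership in the Higgs fields, all levels -/
theorem higgs_iff {Θ : E →ₗ[F] E} :
    Higgs κ N Θ ↔ ∀ p b x, x ∈ (N.ch p).L b → Θ x ∈ (N.ch p).L (b - κ p) := by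
  rw [Higgs, mem_HZ]
  refine forall_congr' fun p => ?_
  show Θ ∈ ((N.ch p).hom (N.ch p)).L (-κ p) ↔ _
  rw [LChain.mem_hom]
  simp only [sub_eq_add_neg]

/-- `φ` vanishes on the `M`-invisible subobject -/
theorem phi_zero (h : L3In κ N B M qM S S' qS x φ A) {y : E} (hy : y ∈ A) : φ y = 0 := by
  have h5 := h.noA (φ ∘ₗ A.subtype) (comp_hz h.hφ (subtype_hz N A))
  exact LinearMap.congr_fun h5 (⟨y, hy⟩ : A)

section

variable (h : L3In κ N B M qM S S' qS x φ A) {A₀ : Submodule F E} (hA : Inv N M S S' A₀)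
  {N₂ : Bun C E₂} {B₂ : LinearMap.BilinForm F E₂} {π : perp B A₀ →ₗ[F] E₂}
  (h2 : SubQ N B (perp B A₀) N₂ B₂ π) (o2 : Orth N₂ B₂) (hle : perp B A ≤ perp B A₀)
  {R : Submodule F E₂} (hR : R = LinearMap.range (π ∘ₗ Submodule.inclusion hle))
  (oR : Orth (N₂.sub R) (rF B₂ R))

include h hA h2 o2 hR oR

/-- **the induced field**: a Higgs field of `N` which kills the kernel of `φ` induces a Higgs field
of `R`; if the induced field is zero then the field is zero -/
theorem exists_ind {ε : F} (hε : ε = 1 ∨ ε = -1) :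
    ∀ Θ : E →ₗ[F] E, Θ ∈ adj B ε → Higgs κ N Θ → (∀ e, φ e = 0 → Θ e = 0) →
      ∃ ThR : R →ₗ[F] R, (∀ (y z : R) (g h : perp B A₀), π g = y → π h = z →
        B₂ (ThR y) z = B (Θ g) h) ∧ ThR ∈ adj (rF B₂ R) ε ∧ Higgs κ (N₂.sub R) ThR ∧
        (IsNilpotent ThR → Θ = 0) := by
  intro Θ hΘ hΘH hΘφ
  have hpp := perp_perp' h.oN.symm h.oN.nd A₀
  have hpA := perp_perp' h.oN.symm h.oN.nd A
  have hker : ∀ g : perp B A₀, π g = 0 ↔ (g : E) ∈ A₀ := by
    intro g
    rw [h2.ker, hpp]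
  have hKA : ∀ a ∈ A, Θ a = 0 := fun a ha => hΘφ a (phi_zero h ha)
  have hK : ∀ a ∈ A₀, Θ a = 0 := fun a ha => hKA a (h.le_A hA ha)
  -- the projection to `R`
  obtain ⟨e2, he1, he2, -, -⟩ := H250.exists_orthProj (B2 := B₂) o2.symm (R := R) (by
    intro y hy hy'
    have h3 := oR.nd ⟨y, hy⟩ (fun z => by
      show B₂ y z = 0
      rw [o2.symm]
      exact mem_perp.1 hy' z z.2)
    exact congrArg Subtype.val h3)
  have hadj : ∀ u v, B (Θ u) v = ε * B u (Θ v) := hΘ
  obtain ⟨ThR, t1, t2⟩ := H250.exists_ThR h.oN.symm h2.surj hker h2.form he1 he2 hK hadj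
  refine ⟨ThR, t1, t2, ?_, ?_⟩
  · rw [higgs_iff] at hΘH ⊢
    intro p a y hy
    rw [oR.dual]
    intro b z hz
    obtain ⟨g, hg, hgy⟩ := (h2.lat p a y).1 hy
    obtain ⟨g', hg', hgz⟩ := (h2.lat p b z).1 hz
    show B₂ (ThR y) z ∈ _
    rw [t1 y z g g' hgy hgz]
    exact (h.oN.dual p _ _).1 (hΘH p a g hg) b g' hg'
  · intro hn
    refine h.nil ε hε Θ hΘ hΘH ?_
    refine H250.nil_of_ThR h.oN.symm h2.surj hker o2.nd h2.form he1 he2 hK hadj ?_ t1 hn
    intro g g' hg
    have h3 : (g : E) ∈ A := by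
      rw [← hpA, mem_perp]
      intro w hw
      have h4 : π ⟨w, hle hw⟩ ∈ R := by
        rw [hR]
        exact ⟨⟨w, hw⟩, rfl⟩
      have h5 := mem_perp.1 hg _ h4
      rw [h2.form] at h5
      exact h5
    rw [hKA _ h3, map_zero, LinearMap.zero_apply]

/-- **[HX5]** -/
theorem hX5
    (alt : (∃ Φ, Higgs κ N Φ ∧ Φ ≠ 0 ∧ Φ ∈ adj B 1 ∧ ∀ e, φ e = 0 → Φ e = 0) ∨
      ∃ g : Fin 2 → (E →ₗ[F] E), (∀ i, g i ∈ adj B (-1)) ∧ (∀ i, Higgs κ N (g i)) ∧
        (∀ i e, φ e = 0 → g i e = 0) ∧ LinearIndependent k g) :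
    (∃ Φ, Higgs κ (N₂.sub R) Φ ∧ Φ ≠ 0 ∧ Φ ∈ adj (rF B₂ R) 1) ∨
      2 ≤ h1 ((N₂.sub R).hom (N₂.sub R)).lat := by
  rcases alt with ⟨Φ, a1, a2, a3, a4⟩ | ⟨g, g1, g2, g3, g4⟩
  · left
    obtain ⟨ThR, -, t2, t3, t4⟩ := exists_ind h hA h2 o2 hle hR oR (Or.inl rfl) Φ a3 a1 a4
    refine ⟨ThR, t3, ?_, t2⟩
    rintro rfl
    exact a2 (t4 ⟨1, by simp⟩)
  · right
    choose t t1 t2 t3 t4 using fun i => exists_ind h hA h2 o2 hle hR oR (Or.inr rfl) (g i) (g1 i)
      (g2 i) (g3 i)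
    have hli : LinearIndependent k t := by
      rw [Fintype.linearIndependent_iff] at g4 ⊢
      intro c hc
      refine g4 c ?_
      -- the combination
      have m1 : (∑ i, c i • g i) ∈ adj B (-1) := by
        have : (∑ i, c i • g i) = ∑ i, algebraMap k F (c i) • g i := by
          refine Finset.sum_congr rfl fun i _ => ?_
          apply LinearMap.ext
          intro y
          rw [LinearMap.smul_apply, LinearMap.smul_apply, algebraMap_smul]
        rw [this]
        exact Submodule.sum_mem _ fun i _ => Submodule.smul_mem _ _ (g1 i)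
      have m2 : Higgs κ N (∑ i, c i • g i) :=
        Submodule.sum_mem _ fun i _ => Submodule.smul_mem _ _ (g2 i)
      have m3 : ∀ e, φ e = 0 → (∑ i, c i • g i) e = 0 := by
        intro e he
        rw [LinearMap.sum_apply]
        refine Finset.sum_eq_zero fun i _ => ?_
        rw [LinearMap.smul_apply, g3 i e he, smul_zero]
      obtain ⟨ThR, s1, -, -, s4⟩ := exists_ind h hA h2 o2 hle hR oR (Or.inr rfl) _ m1 m2 m3
      apply s4
      have h6 : ThR = 0 := by
        apply LinearMap.ext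
        intro y
        refine oR.nd _ fun z => ?_
        obtain ⟨u, hu⟩ := h2.surj y
        obtain ⟨v, hv⟩ := h2.surj z
        show B₂ (ThR y) z = 0
        rw [s1 y z u v hu hv]
        have e1 : B ((∑ i, c i • g i) (u : E)) v = B₂ ((∑ i, c i • t i) y : R) z := by
          have e2 : ((∑ i, c i • t i) y : R) = ∑ i, algebraMap k F (c i) • t i y := by
            rw [LinearMap.sum_apply]
            refine Finset.sum_congr rfl fun i _ => ?_
            rw [LinearMap.smul_apply, algebraMap_smul]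
          have e3 : (∑ i, c i • g i) (u : E) = ∑ i, algebraMap k F (c i) • g i u := by
            rw [LinearMap.sum_apply]
            refine Finset.sum_congr rfl fun i _ => ?_
            rw [LinearMap.smul_apply, algebraMap_smul]
          rw [e2, e3, map_sum, LinearMap.sum_apply, Submodule.coe_sum, map_sum,
            LinearMap.sum_apply]
          refine Finset.sum_congr rfl fun i _ => ?_
          rw [map_smul, LinearMap.smul_apply, Submodule.coe_smul, map_smul, LinearMap.smul_apply,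
            t1 i y z u v hu hv]
        rw [e1, hc, LinearMap.zero_apply, Submodule.coe_zero, map_zero, LinearMap.zero_apply]
      rw [h6]
      exact ⟨1, by simp⟩
    -- the dimension
    let NR := N₂.sub R
    have hs : h0 ((NR.hom NR).tw κ) = h1 (NR.hom NR).lat :=
      ((DPair.hom NR NR).serre h.hκ).2.1
    have hfin : FinCoh ((NR.hom NR).tw κ) := by
      rw [(NR.hom NR).tw_eq κ h.hκ.fin]
      exact ((NR.hom NR).twist κ h.hκ.fin).finCoh
    have := hfin.fin0
    rw [← hs]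
    unfold h0
    let tt : Fin 2 → HZ ((NR.hom NR).tw κ) := fun i => ⟨t i, t3 i⟩
    have hli' : LinearIndependent k tt := by
      refine LinearIndependent.of_comp (HZ ((NR.hom NR).tw κ)).subtype ?_
      exact hli
    simpa using hli'.fintype_card_le_finrank

end

omit [FiniteDimensional F W] in
/-- adjoints of maps into a space with a form exist -/
theorem exists_adjW (hnd : ∀ x, (∀ y, B x y = 0) → x = 0) (q : LinearMap.BilinForm F W)
    (T : E →ₗ[F] W) : ∃ T' : W →ₗ[F] E, ∀ w e, B (T' w) e = q w (T e) := by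
  have hinj : Function.Injective B := by
    rw [injective_iff_map_eq_zero]
    intro x hx
    exact hnd x fun y => by rw [hx]; rfl
  have hd : Module.finrank F E = Module.finrank F (E →ₗ[F] F) :=
    (Subspace.dual_finrank_eq (K := F) (V := E)).symm
  let e : E ≃ₗ[F] (E →ₗ[F] F) := LinearEquiv.ofInjectiveOfFinrankEq B hinj hd
  have he : ∀ x, e x = B x := fun x => rfl
  refine ⟨e.symm.toLinearMap ∘ₗ (LinearMap.lcomp F F T) ∘ₗ q, fun x y => ?_⟩
  rw [← he]
  simp only [LinearMap.comp_apply, LinearEquiv.coe_coe, LinearEquiv.apply_symm_apply]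
  rfl

/-- the first alternative: `φ^* φ` is a Higgs field which kills the kernel of `φ` -/
theorem exists_of_alt (h : L3In κ N B M qM S S' qS x φ A)
    (ha : ∀ φs : W →ₗ[F] E, (∀ w e, B (φs w) e = qM w (φ e)) → φs ∘ₗ φ ≠ 0) :
    ∃ Φ, Higgs κ N Φ ∧ Φ ≠ 0 ∧ Φ ∈ adj B 1 ∧ ∀ e, φ e = 0 → Φ e = 0 := by
  have hlx := mem_hz_hom.1 h.hφ
  obtain ⟨Θ, e1, e2, e3⟩ := exists_op h.oN (κ := κ) (ε := 1) (qM.compl₁₂ φ φ)
    (fun u v => by
      show qM (φ u) (φ v) = 1 * qM (φ v) (φ u)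
      rw [h.oM.symm, one_mul])
    (fun p a b u v hu hv => (h.oM.dual p a _).1 (hlx p a u hu) b _ (hlx p b v hv))
  obtain ⟨φs, hφs⟩ := exists_adjW h.oN.nd qM φ
  refine ⟨Θ, e3, ?_, e2, ?_⟩
  · rintro rfl
    apply ha φs hφs
    apply LinearMap.ext
    intro u
    refine h.oN.nd _ fun v => ?_
    have h3 := e1 u v
    rw [LinearMap.comp_apply, hφs]
    rw [LinearMap.zero_apply, map_zero, LinearMap.zero_apply] at h3
    exact h3.symm
  · intro e he
    refine h.oN.nd _ fun v => ?_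
    rw [e1]
    show qM (φ e) (φ v) = 0
    rw [he, map_zero, LinearMap.zero_apply]

/-- **[HX5]**, with the alternative in the form of `H361.Alt` -/
theorem hX5' (h : L3In κ N B M qM S S' qS x φ A) {A₀ : Submodule F E} (hA : Inv N M S S' A₀)
    {N₂ : Bun C E₂} {B₂ : LinearMap.BilinForm F E₂} {π : perp B A₀ →ₗ[F] E₂}
    (h2 : SubQ N B (perp B A₀) N₂ B₂ π) (o2 : Orth N₂ B₂) (hle : perp B A ≤ perp B A₀)
    {R : Submodule F E₂} (hR : R = LinearMap.range (π ∘ₗ Submodule.inclusion hle))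
    (oR : Orth (N₂.sub R) (rF B₂ R))
    (alt : (∀ φs : W →ₗ[F] E, (∀ w e, B (φs w) e = qM w (φ e)) → φs ∘ₗ φ ≠ 0) ∨
      ∃ g : Fin 2 → (E →ₗ[F] E), (∀ i, g i ∈ adj B (-1)) ∧
        (∀ i p b x, x ∈ (N.ch p).L b → g i x ∈ (N.ch p).L (b - κ p)) ∧
        (∀ i e, φ e = 0 → g i e = 0) ∧ LinearIndependent k g) :
    (∃ Φ, Higgs κ (N₂.sub R) Φ ∧ Φ ≠ 0 ∧ Φ ∈ adj (rF B₂ R) 1) ∨
      2 ≤ h1 ((N₂.sub R).hom (N₂.sub R)).lat := by
  refine hX5 h hA h2 o2 hle hR oR ?_
  rcases alt with ha | ⟨g, g1, g2, g3, g4⟩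
  · exact Or.inl (exists_of_alt h ha)
  · exact Or.inr ⟨g, g1, fun i => higgs_iff.2 (g2 i), g3, g4⟩

end Vale.Agent.P182.H716
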