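import Vale.Agent.P182.H668.Cut
import Vale.Agent.P182.H716.HX5

/-!
# Higgs fields of the summand `R`, in the setting of `H668.Cut`
-/

namespace Vale.Agent.P182.H668

open LinearMap Submodule Module Vale.Agent.P182 Vale.Agent.P182.H430 Vale.Agent.P182.H578
  Vale.Agent.P182.H716

variable {k F P : Type*} [Field k] [Field F] [Algebra k F] {C : Curve k F P}
variable {E : Type*} [AddCommGroup E] [Module F E] [Module k E] [IsScalarTower k F E]
  [FiniteDimensional F E]
variable {E₂ : Type*} [AddCommGroup E₂] [Module F E₂] [Module k E₂] [IsScalarTower k F E₂]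
  [FiniteDimensional F E₂]
variable {W : Type*} [AddCommGroup W] [Module F W] [Module k W] [IsScalarTower k F W]
  [FiniteDimensional F W]
variable {U : Type*} [AddCommGroup U] [Module F U] [Module k U] [IsScalarTower k F U]
  [FiniteDimensional F U]
variable {U' : Type*} [AddCommGroup U'] [Module F U'] [Module k U'] [IsScalarTower k F U']
  [FiniteDimensional F U']

variable {κ : P → ℤ} {N : Bun C E} {B : LinearMap.BilinForm F E} {M : Bun C W}
  {qM : LinearMap.BilinForm F W} {S : Bun C U} {S' : Bun C U'} {qS : U →ₗ[F] U' →ₗ[F] F}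
  {x : E →ₗ[F] U} {φ : E →ₗ[F] W} {A A₀ : Submodule F E}
  {N₂ : Bun C E₂} {B₂ : LinearMap.BilinForm F E₂} {π : perp B A₀ →ₗ[F] E₂} {R : Submodule F E₂}

/-- there are places -/
theorem nonempty_of_dualizing (hκ : Dualizing C κ) : Nonempty P := by
  by_contra hP
  rw [not_nonempty_iff] at hP
  have h1 := hκ.deg
  rw [Curve.deg, finsum_of_isEmpty] at h1
  omega

/-- **[P4]** -/
theorem Cut.X5 (h : Cut κ N B M qM S S' qS x φ A A₀ N₂ B₂ π R) (ha : AltV κ M qM φ) :
    (∃ Φ, Higgs κ (N₂.sub R) Φ ∧ Φ ≠ 0 ∧ Φ ∈ adj (rF B₂ R) 1) ∨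
      2 ≤ h1 ((N₂.sub R).hom (N₂.sub R)).lat := by
  refine hX5 h.l3 h.inv h.red h.o2 h.le h.hR h.oR ?_
  rcases ha with ⟨u, v, huv⟩ | ⟨β, b1, b2, b3⟩
  · left
    refine exists_of_alt h.l3 fun φs hφs h0 => huv ?_
    have h3 : B (φs (φ u)) v = 0 := by
      have h4 : φs (φ u) = 0 := LinearMap.congr_fun h0 u
      rw [h4, map_zero, LinearMap.zero_apply]
    rw [← hφs, h3]
  · right
    have hlx := mem_hz_hom.1 h.l3.hφ
    choose g g1 g2 g3 using fun i => exists_op h.l3.oN (κ := κ) (ε := -1) (β i)
      (fun u v => by rw [b1 i u v]; ring)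
      (fun p a b u v hu hv => b2 i p a b u v (hlx p a u hu) (hlx p b v hv))
    refine ⟨g, g2, g3, ?_, ?_⟩
    · intro i e he
      refine h.l3.oN.nd _ fun v => ?_
      rw [g1]
      obtain ⟨p⟩ := nonempty_of_dualizing h.l3.hκ
      obtain ⟨b, hb⟩ := (M.ch p).exhaust (φ v)
      refine (C.pl p).eq_zero_of_forall (p := C.per p) fun c => ?_
      have h3 := b2 i p (c - b + κ p) b e v (by rw [he]; exact Submodule.zero_mem _) hb
      rwa [show c - b + κ p + b - κ p = c by ring] at h3
    · have b3 := (Fintype.linearIndependent_iff (R := k) (M := E →ₗ[F] E →ₗ[F] F) (v := β)).1 b3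
      rw [Fintype.linearIndependent_iff]
      intro c hc
      refine b3 c ?_
      apply LinearMap.ext₂
      intro u v
      have e1 : (∑ i, c i • β i) u v = B ((∑ i, c i • g i) u) v := by
        have e3 : (∑ i, c i • g i) u = ∑ i, algebraMap k F (c i) • g i u := by
          rw [LinearMap.sum_apply]
          refine Finset.sum_congr rfl fun i _ => ?_
          rw [LinearMap.smul_apply, algebraMap_smul]
        rw [e3, map_sum, LinearMap.sum_apply, LinearMap.sum_apply, LinearMap.sum_apply]
        refine Finset.sum_congr rfl fun i _ => ?_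
        rw [map_smul, LinearMap.smul_apply, LinearMap.smul_apply, LinearMap.smul_apply, g1,
          algebraMap_smul]
      rw [e1, hc, LinearMap.zero_apply, map_zero, LinearMap.zero_apply]
      rfl

end Vale.Agent.P182.H668
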