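import Vale.Agent.P182.H388.GlueI
import Vale.Agent.P182.H89.BaseJ
import Vale.Agent.P182.H55.FlowI
import Vale.Agent.P182.H62.ExBlk
import Vale.Agent.P182.H922.RowS

/-!
# Integration: the glued null case from the row C0
-/

namespace Vale.Agent.P182.H716

open Vale.Agent.P182.H922 hiding ext0
open Module Matrix Vale.Agent.P182.H533 Vale.Agent.P182.B1 Vale.Agent.P182.H578
  Vale.Agent.P182.H588 Vale.Agent.P182.H983 Vale.Agent.P182.H181 Vale.Agent.P182.H89

universe u v w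

variable {L : Type u} {V : Type v} {J : Type w} [Field L] [AddCommGroup V] [Module L V]
  [FiniteDimensional L V] [Fintype J] [DecidableEq J] {𝒟 : Cfg L V J} {u : J → L}

section base

variable {hG : 𝒟.Good} {t t' : J → V} {C : Core 𝒟.q (Res 𝒟 t)} {D : End L C.V1} {Dh : End L V}

/-- the mixed operators at the second base -/
theorem opr_t' (h : DHat hG t' C D Dh) (hrel : Rel 𝒟 t t') (x : L) (s : Fin 3) {w : V}
    (hw : w ∈ C.W) : opr 𝒟.q (Tt L (t + x • t')) (Gm 𝒟.arm 𝒟.Ω s) (Tt L t') w =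
      Res 𝒟 t s ((1 + x • Dh) (Dh w)) := by
  have h0 : ad 𝒟.q (Tt L t') w = ad 𝒟.q (Tt L t) (Dh w) := by
    funext j
    rw [ad_apply, ad_apply, Tt_single, Tt_single, h.rel w hw]
  have h3 : opr 𝒟.q (Tt L (t + x • t')) (Gm 𝒟.arm 𝒟.Ω s) (Tt L t) =
      opr 𝒟.q (Tt L t) (Gm 𝒟.arm 𝒟.Ω s) (Tt L (t + x • t')) := by
    rw [Tt_add, Tt_smul, opr_add_left, opr_add_right, opr_smul_left, opr_smul_right,
      hrel.swap hG s]
  have h1 : opr 𝒟.q (Tt L (t + x • t')) (Gm 𝒟.arm 𝒟.Ω s) (Tt L t') w =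
      opr 𝒟.q (Tt L (t + x • t')) (Gm 𝒟.arm 𝒟.Ω s) (Tt L t) (Dh w) := by
    rw [opr_apply, opr_apply, h0]
  rw [h1, h3, h.opr_right x t s (h.mem w hw)]
  rfl

/-- the same on the core -/
theorem res_t' (h : DHat hG t' C D Dh) (hrel : Rel 𝒟 t t')
    (hDc : ∀ s, D * C.S1 hG.form s = C.S1 hG.form s * D) (x : L) (s : Fin 3) :
    C.res hG.form (opr 𝒟.q (Tt L (t + x • t')) (Gm 𝒟.arm 𝒟.Ω s) (Tt L t')) =
      (1 + x • D) * D * C.S1 hG.form s := by
  have hq := hG.form
  have hSA : ∀ s, IsSA 𝒟.q (Res 𝒟 t s) := Sop_SA 𝒟.arm hq (Tt L t) hG.skew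
  refine LinearMap.ext fun v => ?_
  have hv := C.V1_le v.2
  have h1 := h.mem v hv
  have h2 := h.mem1 x h1
  have hc : (1 + x • D) * D * C.S1 hG.form s = C.S1 hG.form s * ((1 + x • D) * D) := by
    rw [mul_assoc, hDc, ← mul_assoc, comm1 (hDc s), mul_assoc]
  rw [C.res_apply, opr_t' h hrel x s hv, C.P_S hq hSA s (C.W_le_perp hq h2), h.core1 x h1,
    h.core v hv, C.P_coe, hc]
  rfl

/-- **Row (B) at all good parameters.** -/
theorem row_B [IsAlgClosed L] [CharZero L] (hC : Ctx 𝒟 u) (ht : t ∈ Ku 𝒟 u) (ht' : t' ∈ Ku 𝒟 u)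
    (hK : ∀ k ∈ Ku 𝒟 u, ∃ a b : L, k = a • t + b • t') (hrel : Rel 𝒟 t t')
    (h : DHat hC.good t' C D Dh) (hDs : IsSA C.q1 D)
    (hDc : ∀ s, D * C.S1 hC.good.form s = C.S1 hC.good.form s * D)
    (hstr : H89.StructS C.q1 (C.S1 hC.good.form))
    (hC0 : RowC0 𝒟 u t C.W C.I) {x : L} (hx : GoodI hC.good t' C D Dh x)
    {n : ℕ} (P : Fin n → End L C.V1) (d : Fin n → L) (hb : H388.BlkD hC.good C D P d)
    (s : Fin 3)
    (H2 : ∀ h' : End L C.V1, (∀ i, P i * h' * P i = 0) →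
        (∀ c : ℕ, ∀ v ∈ LinearMap.range (C.S1 hC.good.form s ^ c),
          h' v ∈ LinearMap.range (C.S1 hC.good.form s ^ c)) → h' ∈ HHI hC.good u C s)
    {Y Y' : End L C.V1} (hY : IsSk C.q1 Y) (hYo : ∀ i, P i * Y * P i = 0)
    (hYS : Y * ((1 + x • D) ^ 2 * C.S1 hC.good.form s) =
        (1 + x • D) ^ 2 * C.S1 hC.good.form s * Y)
    (hYY : (1 + x • D) * Y' = Y * (1 + x • D)) {h' : End L C.V1}
    (hho : ∀ i, P i * h' * P i = 0)
    (hhr : ∀ c : ℕ, ∀ v ∈ LinearMap.range (C.S1 hC.good.form s ^ c),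
          h' v ∈ LinearMap.range (C.S1 hC.good.form s ^ c)) :
    h' * Y' - Y * h' ∈ HHI hC.good u C s := by
  have hcen : ∀ M : End L C.V1, IsSA C.q1 M →
      (∀ s, M * C.S1 hC.good.form s = C.S1 hC.good.form s * M) → M * D = D * M :=
    fun M hM hMS => H55.comm_of_struct hstr hM hMS hDs hDc
  have hdg := hb.diag
  have hPD : ∀ i, P i * D = D * P i := fun i => by rw [hdg.mul_D, hdg.D_mul]
  refine der_HHI_base h hrel hDs hDc hcen hPD hC0 hx s ?_ H2 hY hYo hYS hYY hho hhr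
  intro H2' Z hZ hZo hZS k hko hkr
  -- the operator at the new base
  have hne : ∀ i, 1 + x * d i ≠ 0 := hb.ne_zero hx.unit
  set D' : End L C.V1 := ∑ i, (d i / (1 + x * d i)) • P i with hD'
  have hdg' : Diag D' P (fun i => d i / (1 + x * d i)) := by
    refine ⟨hdg.sq, hdg.ortho, hdg.sum, fun i j hij => hdg.inj ?_, rfl⟩
    have h1 : d i / (1 + x * d i) = d j / (1 + x * d j) := hij
    rw [div_eq_div_iff (hne i) (hne j)] at h1
    linear_combination h1
  have hDD' : (1 + x • D) * D' = D := by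
    rw [hD', Finset.mul_sum]
    conv_rhs => rw [hb.eq]
    refine Finset.sum_congr rfl fun i _ => ?_
    rw [mul_smul_comm, add_mul, one_mul, smul_mul_assoc, hdg.D_mul, smul_smul]
    have h1 : P i + (x * d i) • P i = (1 + x * d i) • P i := by rw [add_smul, one_smul]
    rw [h1, smul_smul, div_mul_cancel₀ _ (hne i)]
  have hD'c : ∀ s, D' * C.S1 hC.good.form s = C.S1 hC.good.form s * D' := by
    intro s
    rw [hD', Finset.sum_mul, Finset.mul_sum]
    refine Finset.sum_congr rfl fun i _ => ?_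
    rw [smul_mul_assoc, mul_smul_comm, hb.comm]
  have hD'D : D * D' = D' * D := by
    have h1 : ∀ i, P i * D' = D' * P i := fun i => by rw [hdg'.mul_D, hdg'.D_mul]
    conv_lhs => rw [hb.eq]
    conv_rhs => rw [hb.eq]
    rw [Finset.sum_mul, Finset.mul_sum]
    refine Finset.sum_congr rfl fun i _ => ?_
    rw [smul_mul_assoc, mul_smul_comm, h1]
  have hS1 : ∀ s, C.res hC.good.form (Res 𝒟 (t + x • t') s) =
      (1 + x • D) ^ 2 * C.S1 hC.good.form s := fun s => resI h hrel hDc x s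
  have hK' : ∀ k ∈ Ku 𝒟 u, ∃ a b : L, k = a • (t + x • t') + b • t' := by
    intro k hk
    obtain ⟨a, b, rfl⟩ := hK k hk
    refine ⟨a, b - a * x, ?_⟩
    module
  have hD1' : ∀ s, C.res hC.good.form (opr 𝒟.q (Tt L (t + x • t')) (Gm 𝒟.arm 𝒟.Ω s)
      (Tt L t')) = C.res hC.good.form (Res 𝒟 (t + x • t') s) * D' := by
    intro s
    rw [hS1]
    refine Eq.trans (res_t' h hrel hDc x s) ?_
    have h1 : (1 + x • D) * D * C.S1 hC.good.form s =
        (1 + x • D) * ((1 + x • D) * D') * C.S1 hC.good.form s := by rw [hDD']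
    rw [h1, pow_two]
    have h2 := hD'c s
    calc (1 + x • D) * ((1 + x • D) * D') * C.S1 hC.good.form s
        = (1 + x • D) * (1 + x • D) * (D' * C.S1 hC.good.form s) := by noncomm_ring
      _ = (1 + x • D) * (1 + x • D) * (C.S1 hC.good.form s * D') := by rw [h2]
      _ = (1 + x • D) * (1 + x • D) * C.S1 hC.good.form s * D' := by noncomm_ring
  have hcen' : ∀ M : End L C.V1, IsSA C.q1 M →
      (∀ a, M * C.res hC.good.form (Res 𝒟 (t + x • t') a) =
        C.res hC.good.form (Res 𝒟 (t + x • t') a) * M) → M * D' = D' * M := by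
    intro M hM hMS
    have h1 : M * D = D * M := hx.central M hM fun s => by
      have h2 := hMS s
      rw [hS1] at h2
      exact h2
    -- `M` commutes with `1 + x D`, hence with `D'`
    obtain ⟨g, hg⟩ := hx.unit.exists_left_inv
    have h2 : M * (1 + x • D) = (1 + x • D) * M := by
      rw [mul_add, add_mul, mul_one, one_mul, mul_smul_comm, smul_mul_assoc, h1]
    have h3 : (1 + x • D) * (M * D') = (1 + x • D) * (D' * M) := by
      rw [← mul_assoc, ← h2, mul_assoc, hDD', ← mul_assoc, hDD', h1]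
    have h4 := congrArg (g * ·) h3
    simp only [← mul_assoc] at h4
    rw [hg, one_mul, one_mul] at h4
    exact h4
  have hPS' : ∀ i a, P i * C.res hC.good.form (Res 𝒟 (t + x • t') a) =
      C.res hC.good.form (Res 𝒟 (t + x • t') a) * P i := by
    intro i a
    rw [hS1]
    have h1 : P i * (1 + x • D) = (1 + x • D) * P i := by
      rw [mul_add, add_mul, mul_one, one_mul, mul_smul_comm, smul_mul_assoc, hPD]
    exact (((show Commute (P i) (1 + x • D) from h1).pow_right 2).mul_right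
      (show Commute (P i) (C.S1 hC.good.form a) from hb.comm i a)).eq
  have hC0' : RowC0 𝒟 u (t + x • t') C.W C.I := rowC0_base h hrel hDs hDc hcen hC0 hx
  refine H55.der_HHI' (C := coreI h hrel hx.onto hx.nil) hC (t := t + x • t') (t' := t')
    (Submodule.add_mem _ ht (Submodule.smul_mem _ _ ht')) ht' hK' hC0' (D := D') hdg' hb.sa hPS'
    hD1' hcen' s two_ne_zero (fun k hko hkr => ?_) (Y := Z) hZ hZo ?_ (h := k) hko ?_
  · refine H2' k hko fun c v hv => ?_
    rw [← hS1] at hv ⊢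
    exact hkr c v hv
  · show Z * C.res hC.good.form (Res 𝒟 (t + x • t') s) =
      C.res hC.good.form (Res 𝒟 (t + x • t') s) * Z
    rw [hS1]
    exact hZS
  · intro c v hv
    have h1 := hkr c v
    rw [← hS1] at h1
    exact h1 hv

end base

/-- **The glued null case from the row C0.** -/
theorem hypGlueU_of_rowC0 (L : Type u) (J : Type w) [Field L] [Fintype J] [DecidableEq J]
    [IsAlgClosed L] [CharZero L]
    (hC0 : ∀ (V : Type v) [AddCommGroup V] [Module L V] [FiniteDimensional L V]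
      (𝒟 : Cfg L V J) (u : J → L), CritU 𝒟 u → ∀ t t' : J → V, MaxCoreU 𝒟 u t →
      MovesU 𝒟 u t → ∀ (W I : Submodule L V) (n : ℕ) (U : Fin n → Submodule L V)
      (d : Fin n → L) (p : Fin 3 → ℕ), Blk 𝒟 u t t' W I U d p → RowC0 𝒟 u t W I) :
    H55.HypGlueU.{u, v, w} L J := by
  intro V _ _ _ 𝒟 u h t ht hm C hI h0 t' ht' D hDs hD1 hD2 he hN
  have hrel : Rel 𝒟 t t' := U.rel_of_krel h.ctx.krel ht.1 ht'
  obtain ⟨n, P, d, p, -, -, -, hBlk⟩ := H62.exists_blk h ht.1 hm C ht' hDs hD1 hD2 he hN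
  obtain ⟨F, hF, hF0, hFr⟩ := S2.exists_rowS two_ne_zero hBlk h.ctx ht
  have hR := hC0 V 𝒟 u h t t' ht hm _ _ _ _ _ _ hBlk
  refine H388.glue_end h ht hm C ht' hDs hD1 hD2 he hN hF hF0
    (fun s => HHI h.ctx.good u C s) ?_ ?_ ?_
  · intro hDc hK hstr Dh hDh hDhI x hx hxM hxm hxb s β hβ hc
    exact mem_HHI_comm two_ne_zero hDh hrel hDs hDc hR hx (hFr 1 x hxb).2.2 s hβ hc
  · intro hDc hK hstr Dh hDh hDhI x hx hxM hxm hxb n P d hb s H2 Y Y' hY hYo hYS hYY h' hho hhr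
    exact row_B h.ctx ht.1 ht' hK hrel hDh hDs hDc hstr hR hx P d hb s H2 hY hYo hYS hYY hho hhr
  · intro hDc hK hstr Dh hDh hDhI h' hh
    exact HHI_end hDh hDs ht.1.2 hK hh

end Vale.Agent.P182.H716
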